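import Vale.Agent.P219W.St2
import Vale.Agent.P219I78.Main
import Vale.Agent.P219W.Main
import Vale.Agent.P219W.Ball
import Vale.Agent.P219W21.Two2
import Vale.Agent.P219W42.Two1
import Vale.Agent.P219W88.Two3

open scoped Manifold ContDiff ENNReal
open MeasureTheory Set
open Vale.Agent.P255 (RMetric)
open Vale.Agent.P219.Co (E modelVol modelArea omega)
open Vale.Agent.P219.Mfd (Complete SecLE)
open Vale.Agent.P219I (IsRiem SecIn exu_riem secLE_iff secEq_iff)
open Vale.Agent.P219S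
open Vale.Agent.P219W (vol_bijOn profile_zero profile_vol model_spaceForm complete_of exists_normal
  rigid ball_row)

namespace Vale.Agent.Results.P219.AALiteral

/-- The generalized Cartan-Hadamard conjecture with its equality case. Completeness, boundedness,
geodesic balls, volume and area are those of the Riemannian distance; `Sec` is the sectional
curvature of the Levi-Civita connection.
(1) `V_κ` is a bijection of `[0, ∞)`, and `I_0 (V) = n ω_n^(1/n) V^((n-1)/n)`.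
(2) There is a simply connected space form of curvature `κ`.
(3) Every `(M, g)` has exactly one Riemann curvature tensor.
(4) Let `(M, g)` be complete and simply connected with `Sec ≤ κ`. (a) The `k`-dimensional measure of
a parametrized submanifold is the volume of the induced metric. (b) If `Sec = κ`, geodesic balls
are domains with volume `V_κ (r)` and boundary area `A_κ (r)`. (c) Every domain `Ω` satisfies
`area (∂Ω) ≥ I_κ (vol Ω)`, with equality if and only if `Ω` is isometric to a geodesic ball of the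
space form. -/
theorem result {n : ℕ} (hn : 2 ≤ n) {κ : ℝ} (hκ : κ ≤ 0) :
    (BijOn (modelVol n κ) (Ici 0) (Ici 0) ∧ ∀ v : ℝ, 0 ≤ v →
      profile n 0 v = n * omega n ^ (1 / (n : ℝ)) * v ^ (((n : ℝ) - 1) / n)) ∧
    HasModel (E n) κ ∧
    ∀ (M : Type) [TopologicalSpace M] [T2Space M] [ChartedSpace (E n) M]
      [IsManifold 𝓘(ℝ, E n) ∞ M] [MeasurableSpace M] [BorelSpace M] (g : RMetric (E n) M),
      (∃! R, IsRiem g R) ∧ (SimplyConnectedSpace M → MetricComplete g → SecIn g (Iic κ) →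
      AreaFormula g ∧ (SecIn g {κ} → BallFormulas g n κ) ∧
      ∀ Ω : Set M, IsDom g Ω → rmeas g n Ω ≠ ⊤ ∧
        ENNReal.ofReal (profile n κ (rmeas g n Ω).toReal) ≤ rmeas g (n - 1) (frontier Ω) ∧
        ∀ (N : Type) [TopologicalSpace N] [T2Space N] [ChartedSpace (E n) N]
          [IsManifold 𝓘(ℝ, E n) ∞ N] (h : RMetric (E n) N), SpaceForm h κ → ∀ o : N,
          (rmeas g (n - 1) (frontier Ω) = ENNReal.ofReal (profile n κ (rmeas g n Ω).toReal) ↔
            ∃ r : ℝ, 0 ≤ r ∧ Isometric h (gball h o r) g Ω)) := by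
  have hn1 : 1 ≤ n := by omega
  refine ⟨⟨vol_bijOn hn1 κ, fun V hV => profile_zero hn1 hV⟩, ?_,
    fun M _ _ _ _ _ _ g => ⟨exu_riem g, fun hsc hc' hs' => ?_⟩⟩
  · obtain ⟨h, h1, h2, h3⟩ := model_spaceForm (n := n) hκ (Vale.Agent.P219W13.mod_ hκ)
    exact ⟨h, h1, h2, secEq_iff.2 h3⟩
  have hc : Complete g := complete_of (Or.inl hc')
  have hs : SecLE g κ := secLE_iff.1 hs'
  have hN := exists_normal hκ hc hs
  have key := fun Ω (hΩ : IsDom g Ω) => rigid hn hκ hc hs Vale.Agent.P219W42.two1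
    (Vale.Agent.P219W21.two2 g) (ball_row g) (Ω := Ω) ⟨hΩ.1, hΩ.2.1, hΩ.2.2⟩
  refine ⟨fun k φ U s hφ => Vale.Agent.P219W21.af g (fun p => (hN p).imp fun Ψ h => h.nice) k φ U s
    hφ.1 hφ.2.1 hφ.2.2.1 hφ.2.2.2, fun he o r hr => ?_, fun Ω hΩ => ?_⟩
  · obtain ⟨b1, -, b3⟩ := ball_row g hN o r
    obtain ⟨Ψ, hΨ⟩ := hN o
    obtain ⟨s, -, h1, -, h3⟩ := key _ ⟨b1.1, b1.2, b1.3⟩
    obtain ⟨rfl, h4⟩ := (h3 M g (Vale.Agent.P219W88.two3 g g) ⟨hsc, hΨ.isComplete, secEq_iff.1 he⟩ o).2 r hr b3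
    exact ⟨⟨b1.1, b1.2, b1.3⟩, h1, h4⟩
  · obtain ⟨r, hr, h1, h2, h3⟩ := key Ω hΩ
    have h1' : rmeas g n Ω = ENNReal.ofReal (modelVol n κ r) := h1
    have h4 : profile n κ (rmeas g n Ω).toReal = modelArea n κ r := by
      rw [h1', ENNReal.toReal_ofReal (Vale.Agent.P219.Co.Prof732.vol_nonneg hn1 κ hr)]
      exact profile_vol hn1 κ hr
    rw [h4]
    refine ⟨by rw [h1']; exact ENNReal.ofReal_ne_top, h2, fun N _ _ _ _ h hh o => ?_⟩
    obtain ⟨h5, h6⟩ := h3 N h (Vale.Agent.P219W88.two3 h g) ⟨hh.1, hh.2.1, secEq_iff.1 hh.2.2⟩ o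
    exact ⟨fun h7 => ⟨r, hr, h5 h7⟩, fun ⟨r', hr', h7⟩ => (h6 r' hr' h7).2⟩

end Vale.Agent.Results.P219.AALiteral
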